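import Vale.Agent.P088.R2.H660.P.Rows
import Vale.Agent.P088.R2.H768.A.SymF
import Vale.Agent.P088.R2.H768.A.RowWd
import Vale.Agent.P088.R2.H808.A.Sym
import Vale.Agent.P088.R2.H983.A.Slot
import Vale.Agent.P088.R2.H973.W.DD

/-!
# P088, stage 3, zone P: the first and second derivatives of the weight at the pass

All entries of `Wb` of order one and two, and the mixed derivatives, with a numerical constant for
the critical slot.
-/

open Set Filter
open scoped ContDiff Topology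

noncomputable section

namespace Vale.Agent.P088.R2.H983.P

open Vale.Agent.P088.LR
open Vale.Agent.P088.HY hiding dd
open Vale.Agent.P088.R2.H961.GW Vale.Agent.P088.R2.H644 Vale.Agent.P088.R2.H644.Ch
open Vale.Agent.P088.R2.H230.W

section gen

variable {E ι κ' : Type*} [NormedAddCommGroup E] [NormedSpace ℝ E] [Fintype ι] [Fintype κ']
variable {σ : Sl E ι} {τ : Sl E κ'} {U : Set E} {θ θ' : E → ℝ} {u r : E → ℝ}
  {Φ Φ₁ Φ₂ S S₁ S₂ : ℝ → ℝ} {D : ℕ → ℕ → ℝ → ℝ → ℝ} {z : E}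

/-- The second derivatives of the composed weight where `Ψ = e^f`. -/
theorem DD_wt (ok : σ.Ok U θ) (ot : τ.Ok U θ') (w : Wd U Φ Φ₁ Φ₂ S S₁ S₂ D u r) (hz : z ∈ U)
    (d20 : D 2 0 (u z + S (r z)) (r z) = D 1 0 (u z + S (r z)) (r z))
    (d01 : D 0 1 (u z + S (r z)) (r z) = 0) (d11 : D 1 1 (u z + S (r z)) (r z) = 0)
    (d02 : D 0 2 (u z + S (r z)) (r z) = 0) (i : ι) (k : κ') :
    σ.D i (τ.D k (wt Φ S D u r)) z =
      Φ₂ (u z) * (σ.D i u z * τ.D k u z) +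
      D 1 0 (u z + S (r z)) (r z) * ((σ.D i u z + S₁ (r z) * σ.D i r z) *
        (τ.D k u z + S₁ (r z) * τ.D k r z)) +
      (Φ₁ (u z) + D 1 0 (u z + S (r z)) (r z)) * σ.D i (τ.D k u) z +
      D 1 0 (u z + S (r z)) (r z) * S₂ (r z) * (σ.D i r z * τ.D k r z) +
      D 1 0 (u z + S (r z)) (r z) * S₁ (r z) * σ.D i (τ.D k r) z := by
  have e : σ.D i (τ.D k (wt Φ S D u r)) z = σ.D i (τ.D k fun z => Φ (u z)) z +
      σ.D i (τ.D k fun z => D 0 0 (u z + S (r z)) (r z)) z :=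
    DD_add ok ot w.cu.s0 w.cD.s00 i k hz
  have ef : σ.D i (τ.D k fun z => u z + S (r z)) z =
      σ.D i (τ.D k u) z + (S₁ (r z) * σ.D i (τ.D k r) z + S₂ (r z) * σ.D i r z * τ.D k r z) := by
    rw [DD_add ok ot w.cu.su w.cr.s0 i k hz, DD_comp ok ot w.cr i k hz]
  rw [e, DD_comp ok ot w.cu i k hz, DD_comp2 ok ot w.cD i k hz, ef, D_f ok w hz, D_f ot w hz, d20,
    d01, d11, d02]
  ring

end gen

/-- The numbers at a point. -/
structure Np (G N K L L' κ r : ℝ) : Prop where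
  κ0 : 0 < κ
  κ1 : κ ≤ 1 / 10
  G0 : 0 < G
  N0 : 0 ≤ N
  NG : N ≤ κ * G
  K0 : 0 ≤ K
  K1 : K ≤ 21 / 10 * N
  L0 : 97 / 100 ≤ L
  L1 : L ≤ 103 / 100
  L2 : |L'| ≤ κ
  r0 : 0 < r
  cu : G * L / r ≤ 9 / 4 * κ * G

variable {G N K L L' κ r : ℝ}

/-- Critical slot against any slot. -/
theorem Np.bd (p : Np G N K L L' κ r) {ui uk ri rk wi uik rik : ℝ} (h1 : |ui| ≤ 2) (h2 : |uk| ≤ 2)
    (h3 : |ri| ≤ 2) (h4 : |rk| ≤ 2) (hw : wi = N * ui + G * (ui + L * ri))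
    (h5 : |wi| + 2 * N ≤ 2 * κ * G) (h6 : |uik| ≤ κ) (h7 : |rik| ≤ 4 / r) :
    |K * (ui * uk) + G * ((ui + L * ri) * (uk + L * rk)) + (N + G) * uik + G * L' * (ri * rk) +
      G * L * rik| ≤ 40 * κ * G := by
  have hκ := p.κ0
  have hG := p.G0
  have κG : 0 < κ * G := by positivity
  have a1 : |K * (ui * uk)| ≤ 9 * (κ * G) := by
    rw [abs_mul, abs_of_nonneg p.K0, abs_mul]
    have := mul_le_mul h1 h2 (abs_nonneg _) (by norm_num)
    have := mul_le_mul_of_nonneg_left this p.K0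
    linarith [p.K1, p.NG]
  have a2 : |G * (ui + L * ri)| ≤ 2 * (κ * G) := by
    have e : G * (ui + L * ri) = wi - N * ui := by rw [hw]; ring
    rw [e]
    refine (abs_sub _ _).trans ?_
    rw [abs_mul, abs_of_nonneg p.N0]
    have := mul_le_mul_of_nonneg_left h1 p.N0
    linarith
  have a3 : |uk + L * rk| ≤ 5 := by
    refine (abs_add_le _ _).trans ?_
    rw [abs_mul, abs_of_nonneg (by linarith [p.L0] : 0 ≤ L)]
    have := mul_le_mul p.L1 h4 (abs_nonneg _) (by norm_num)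
    linarith
  have a4 : |G * ((ui + L * ri) * (uk + L * rk))| ≤ 10 * (κ * G) := by
    rw [← mul_assoc, abs_mul]
    have := mul_le_mul a2 a3 (abs_nonneg _) (by positivity)
    linarith
  have a5 : |(N + G) * uik| ≤ 2 * (κ * G) := by
    rw [abs_mul, abs_of_nonneg (by linarith [p.N0] : 0 ≤ N + G)]
    have h8 : N + G ≤ 2 * G := by nlinarith [p.NG, p.κ1]
    have := mul_le_mul h8 h6 (abs_nonneg _) (by positivity)
    linarith
  have a6 : |G * L' * (ri * rk)| ≤ 4 * (κ * G) := by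
    rw [abs_mul, abs_mul, abs_of_pos hG, abs_mul]
    have := mul_le_mul h3 h4 (abs_nonneg _) (by norm_num)
    have h8 := mul_le_mul_of_nonneg_left p.L2 hG.le
    have := mul_le_mul h8 this (by positivity) (by positivity)
    linarith
  have a7 : |G * L * rik| ≤ 9 * (κ * G) := by
    have hGL : 0 ≤ G * L := by have := p.L0; positivity
    rw [abs_mul, abs_of_nonneg hGL]
    have := mul_le_mul_of_nonneg_left h7 hGL
    have e : G * L * (4 / r) = 4 * (G * L / r) := by ring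
    rw [e] at this
    linarith [p.cu]
  calc _ ≤ |K * (ui * uk)| + |G * ((ui + L * ri) * (uk + L * rk))| + |(N + G) * uik| +
        |G * L' * (ri * rk)| + |G * L * rik| :=
        (abs_add_le _ _).trans (add_le_add ((abs_add_le _ _).trans (add_le_add ((abs_add_le _ _).trans
          (add_le_add (abs_add_le _ _) le_rfl)) le_rfl)) le_rfl)
    _ ≤ _ := by linarith

/-! ## The slots at a point -/

open Vale.Agent.P088.R2.H747.A (rr lS lS₁ lS₂ D₂ ff GG NG ee hh OmB Bd)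
open Vale.Agent.P088.R2.H660.P (sP tP hP kP KP OmP RowPSz RowPBas)
open Vale.Agent.P088.R2.H31.EP
open Vale.Agent.P088.R2.H464.Cu (mid dif rq)

/-- The fields of order one and two of `Wb`, and the mixed derivatives. -/
structure W12 {E ι : Type*} [NormedAddCommGroup E] [NormedSpace ℝ E] [Fintype ι]
    (σ τ : Sl E ι) (W G : E → ℝ) (κ C₁ C : ℝ) (z : E) : Prop where
  G1 : 1 ≤ G z
  w1 : ∀ i, |σ.D i W z| ≤ C * G z
  w1' : ∀ i, |τ.D i W z| ≤ C * G z
  w2 : ∀ i j, |σ.D i (σ.D j W) z| ≤ C₁ * κ * G z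
  w2' : ∀ i j, |τ.D i (τ.D j W) z| ≤ C * G z
  g1 : ∀ i, |σ.D i G z| ≤ C * G z
  g1' : ∀ i, |τ.D i G z| ≤ C * G z
  lo : G z ≤ nn (gr τ W z)
  mx : ∀ i j, |τ.D i (σ.D j W) z| ≤ C₁ * κ * G z

theorem Bd.swap {E ι : Type*} [NormedAddCommGroup E] [NormedSpace ℝ E] [Fintype ι]
    {σ τ : Sl E ι} {f : E → ℝ} {b₁ b₂ : ℝ} {z : E} (h : Bd σ τ f b₁ b₂ z) : Bd τ σ f b₁ b₂ z :=
  ⟨h.y, h.x, h.yy, h.yx, h.xy, h.xx⟩

section pt

variable {E ι : Type*} [NormedAddCommGroup E] [NormedSpace ℝ E] [Fintype ι]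
variable {σ τ : Sl E ι} {U : Set E} {θ θ' : E → ℝ} {u r W Gf : E → ℝ} {e h : ι → ℝ}
  {Φ Φ₁ Φ₂ S S₁ S₂ : ℝ → ℝ} {D : ℕ → ℕ → ℝ → ℝ → ℝ} {z : E} {C ε g : ℝ}

/-- **The fields of order one and two at a point.** -/
theorem w12_pt (ok : σ.Ok U θ) (ot : τ.Ok U θ') (w : Wd U Φ Φ₁ Φ₂ S S₁ S₂ D u r) (hz : z ∈ U)
    (eW : EqOn W (wt Φ S D u r) U)
    (eG : Gf z = D 1 0 (u z + S (r z)) (r z))
    (d20 : D 2 0 (u z + S (r z)) (r z) = D 1 0 (u z + S (r z)) (r z))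
    (d01 : D 0 1 (u z + S (r z)) (r z) = 0) (d11 : D 1 1 (u z + S (r z)) (r z) = 0)
    (d02 : D 0 2 (u z + S (r z)) (r z) = 0)
    (p : Np (Gf z) (Φ₁ (u z)) (Φ₂ (u z)) (S₁ (r z)) (S₂ (r z)) κ (r z)) (hG : 1 ≤ Gf z)
    (hw : nn (gr σ W z) + 2 * Φ₁ (u z) ≤ 2 * κ * Gf z)
    (bu : Bd σ τ u 2 κ z) (br : Bd σ τ r 2 (4 / r z) z)
    (bW : Bd σ τ W (C * Gf z) (C * Gf z) z)
    (g1 : ∀ i, |σ.D i Gf z| ≤ C * Gf z) (g2 : ∀ i, |τ.D i Gf z| ≤ C * Gf z)
    (G : Geo σ τ u r e h ε g z) (hε : ε ≤ 1 / 10) :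
    W12 σ τ W Gf κ 40 C z := by
  have hU := ok.op
  have D2W : ∀ (ρ₁ ρ₂ : Sl E ι), ρ₁.Ok U θ → ρ₂.Ok U θ' → ∀ i k,
      ρ₁.D i (ρ₂.D k W) z = ρ₁.D i (ρ₂.D k (wt Φ S D u r)) z := fun ρ₁ ρ₂ h1 h2 i k =>
    D_congr ρ₁ h1.op (fun y hy => D_congr ρ₂ h2.op eW k hy) i hz
  have e1 : ∀ i, σ.D i W z = Φ₁ (u z) * σ.D i u z +
      Gf z * (σ.D i u z + S₁ (r z) * σ.D i r z) := fun i => by
    rw [D_congr σ hU eW i hz, D_wt ok w hz i, ← eG, d01]; ring
  have aw : ∀ i, |σ.D i W z| + 2 * Φ₁ (u z) ≤ 2 * κ * Gf z := fun i => by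
    have := abs_le_nn (gr σ W z) i
    have e : gr σ W z i = σ.D i W z := rfl
    rw [e] at this
    linarith
  refine { G1 := hG, w1 := bW.x, w1' := bW.y, w2 := fun i j => ?_, w2' := bW.yy, g1 := g1,
           g1' := g2, lo := ?_, mx := fun i j => ?_ }
  · have h1 : σ.D i (σ.D j W) z = σ.D i (σ.D j (wt Φ S D u r)) z :=
      D_congr σ hU (fun y hy => D_congr σ hU eW j hy) i hz
    rw [h1, DD_wt ok ok w hz d20 d01 d11 d02 i j, ← eG]
    exact p.bd (bu.x i) (bu.x j) (br.x i) (br.x j) (e1 i) (aw i) (bu.xx i j) (br.xx i j)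
  · have s1 : ∀ ρ : Sl E ι, (∃ θ, ρ.Ok U θ) → gr ρ W z =
        (Φ₁ (u z) + Gf z) • gr ρ u z + (Gf z * S₁ (r z)) • gr ρ r z := by
      rintro ρ ⟨θ₀, h0⟩
      funext i
      have e3 : gr ρ W z i = ρ.D i W z := rfl
      rw [e3, D_congr ρ h0.op eW i hz, D_wt h0 w hz i, ← eG, d01]
      simp only [Pi.add_apply, Pi.smul_apply, smul_eq_mul, gr]; ring
    have e2 : gr τ W z = (Φ₁ (u z) + Gf z) • ((gr σ u z - e) + (gr τ u z - e)) +
        (Gf z * S₁ (r z)) • ((gr σ r z - h) + (gr τ r z + h)) +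
        (2 * (Φ₁ (u z) + Gf z)) • e - gr σ W z := by
      rw [s1 τ ⟨_, ot⟩, s1 σ ⟨_, ok⟩]
      funext i
      simp only [Pi.add_apply, Pi.smul_apply, Pi.sub_apply, smul_eq_mul]; ring
    have ne : nn e = 1 := by unfold nn; rw [G.ee, Real.sqrt_one]
    obtain ⟨X, hX⟩ : ∃ X, X = (Φ₁ (u z) + Gf z) • ((gr σ u z - e) + (gr τ u z - e)) := ⟨_, rfl⟩
    obtain ⟨Y, hY⟩ : ∃ Y, Y = (Gf z * S₁ (r z)) • ((gr σ r z - h) + (gr τ r z + h)) := ⟨_, rfl⟩
    have hNG : 0 ≤ Φ₁ (u z) + Gf z := by linarith [p.N0]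
    have hGS : 0 ≤ Gf z * S₁ (r z) := mul_nonneg p.G0.le (by linarith [p.L0])
    have nX : nn X ≤ (Φ₁ (u z) + Gf z) * (2 * ε) := by
      rw [hX, nn_smul, abs_of_nonneg hNG]
      refine mul_le_mul_of_nonneg_left ?_ hNG
      exact (nn_add_le _ _).trans (by linarith [G.ux, G.uy])
    have nY : nn Y ≤ (Gf z * S₁ (r z)) * (2 * ε) := by
      rw [hY, nn_smul, abs_of_nonneg hGS]
      refine mul_le_mul_of_nonneg_left ?_ hGS
      exact (nn_add_le _ _).trans (by linarith [G.rx, G.ry])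
    have e3 : (2 * (Φ₁ (u z) + Gf z)) • e = gr τ W z - X - Y + gr σ W z := by
      rw [hX, hY, e2]; abel
    have n3 : 2 * (Φ₁ (u z) + Gf z) ≤ nn (gr τ W z) + nn X + nn Y + nn (gr σ W z) := by
      have h1 : nn ((2 * (Φ₁ (u z) + Gf z)) • e) = 2 * (Φ₁ (u z) + Gf z) := by
        rw [nn_smul, ne, mul_one, abs_of_nonneg (by linarith)]
      rw [← h1, e3]
      have a1 := nn_add_le (gr τ W z - X - Y) (gr σ W z)
      have a2 := nn_sub_le (gr τ W z - X) Y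
      have a3 := nn_sub_le (gr τ W z) X
      linarith
    have ε0 : 0 ≤ ε := (nn_nonneg _).trans G.ux
    have b1 : (Φ₁ (u z) + Gf z) * (2 * ε) ≤ (Φ₁ (u z) + Gf z) * (1 / 5) :=
      mul_le_mul_of_nonneg_left (by linarith) hNG
    have b2 : (Gf z * S₁ (r z)) * (2 * ε) ≤ (Gf z * S₁ (r z)) * (1 / 5) :=
      mul_le_mul_of_nonneg_left (by linarith) hGS
    have b3 : Gf z * S₁ (r z) ≤ Gf z * (103 / 100) := mul_le_mul_of_nonneg_left p.L1 p.G0.le
    have b4 : 2 * κ * Gf z ≤ 1 / 5 * Gf z :=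
      mul_le_mul_of_nonneg_right (by linarith [p.κ1]) p.G0.le
    have b5 := p.N0
    have b6 := p.G0
    linarith
  · have h1 : τ.D i (σ.D j W) z = τ.D i (σ.D j (wt Φ S D u r)) z :=
      D_congr τ ot.op (fun y hy => D_congr σ hU eW j hy) i hz
    rw [h1, DD_wt ot ok w hz d20 d01 d11 d02 i j, ← eG]
    have := p.bd (bu.x j) (bu.y i) (br.x j) (br.y i) (e1 j) (aw j) (bu.yx i j) (br.yx i j)
    refine le_of_eq_of_le ?_ this
    congr 1
    ring

end pt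

/-! ## On the package -/

variable {n : ℕ}

theorem Bd_nk (d : Pk n) {U : Set (VV n)} (hU : IsOpen U) {f : VV n → ℝ} (hf : Sm U f) {z : VV n}
    (hz : z ∈ U) {b₁ b₂ : ℝ} (h1 : ∀ i, |d.sx.D i f z| ≤ b₁) (h1' : ∀ i, |d.sy.D i f z| ≤ b₁)
    (h2 : ‖iteratedFDeriv ℝ 2 f z‖ ≤ b₂) : Bd d.sx d.sy f b₁ b₂ z := by
  have nd : ∀ a, ‖H808.A.dr n a‖ ≤ 1 := by
    rintro (i | i)
    · simp [H808.A.dr, Prod.norm_def, Pi.norm_single]
    · simp [H808.A.dr, Prod.norm_def, Pi.norm_single]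
  have key : ∀ a b, |H808.A.dv (H808.A.dr n a) (H808.A.dv (H808.A.dr n b) f) z| ≤ b₂ := by
    intro a b
    have := H973.W.DD_le hU hf (l := [H808.A.dr n a, H808.A.dr n b])
      (by intro v hv; simp at hv; rcases hv with h | h <;> rw [h] <;> exact nd _) hz
    exact this.trans h2
  refine ⟨h1, h1', fun i j => ?_, fun i j => ?_, fun i j => ?_, fun i j => ?_⟩
  · rw [H808.A.sxD, H808.A.sxD]; exact key _ _
  · rw [H808.A.sxD, H808.A.syD]; exact key _ _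
  · rw [H808.A.syD, H808.A.sxD]; exact key _ _
  · rw [H808.A.syD, H808.A.syD]; exact key _ _

/-- **The fields of order one and two of `RowPW`, and the mixed derivatives** (`C₁ = 40`). -/
theorem w12 (n : ℕ) (hn : 1 ≤ n) (hSz : RowPSz n) (hB : RowPBas n) :
    ∃ C : Cst → ℝ, NB_M₀ C ∧ (∀ q, 1 ≤ C q) ∧ EvC fun q => ∀ d : Pk n, PkOk q d → ∀ b : Bool,
      ∀ z ∈ OmP q d b, W12 (sP d b) (tP d b) (d.W q) (GG q d) (kP q) 40 (C q) z := by
  obtain ⟨Cu, hCu, Cu1, hu⟩ := H768.A.de_ext hn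
  obtain ⟨Cs, hCs, Cs0, hs⟩ := H808.A.rowSym n (fun _ => 1) (fun _ => rfl) (fun _ => one_pos)
  have h1 := hSz (fun _ => 1) (fun _ => 1 / 10) (fun _ => rfl) (fun _ => rfl)
    (fun _ => by norm_num)
  have h2 := hB (fun _ => 1 / 10) (fun _ => 1 / 10) (fun _ => rfl) (fun _ => rfl)
    (fun _ => by norm_num) (fun _ => by norm_num)
  have h3 : EvC fun q => 0 < kP q → Cu q ≤ q.R * kP q := by
    have h := EvC.at_R (fun q t => 0 < kP q → Cu q ≤ t * kP q) fun q => by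
      by_cases hk : 0 < kP q
      · filter_upwards [eventually_ge_atTop (Cu q / kP q)] with t ht _
        rwa [div_le_iff₀ hk] at ht
      · exact Eventually.of_forall fun _ h => absurd h hk
    refine h.mono fun q hq hk => ?_
    have e1 : Cu q.b_R = Cu q := by
      rw [← hCu q.b_R, ← hCu q]; rfl
    have e2 : kP q.b_R = kP q := rfl
    have := hq (by rw [e2]; exact hk)
    rwa [e1, e2] at this
  have h4 : EvC fun q => 0 < q.c' → 2 * q.p₁ + 1 < q.r₁ * Real.exp (-1) := by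
    refine (EvC.at_M₀ (fun q t => 0 < q.c' → 2 * q.p₁ + 1 < q.c' * t / 2 * Real.exp (-1))
      fun q => ?_).mono fun q hq => hq
    by_cases hc : 0 < q.c'
    · have he := Real.exp_pos (-1)
      filter_upwards [eventually_gt_atTop ((2 * q.p₁ + 1) / (q.c' / 2 * Real.exp (-1)))] with t ht _
      rw [div_lt_iff₀ (by positivity)] at ht
      linarith
    · exact Eventually.of_forall fun _ h => absurd h hc
  have h5 : EvC fun q => q.κ₁ ≤ 1 / 2 := EvC.at_κ₁ (fun _ t => t ≤ 1 / 2) fun _ =>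
    sml_le (by norm_num)
  refine ⟨fun q => 2 * Cs q + 1, fun q => by simp only [hCs q], fun q => by
    have := Cs0 q; linarith, ?_⟩
  refine ((((H644.Pf.Gc.ev n).and H768.A.Es_ev).and (hs.and (H768.A.rowWd n))).and
    (((h1.and h2).and (h3.and h4)).and ((H808.A.ev_cq n).and ((H983.A.evSlC n).and
      (h5.and EvC.pos))))).mono ?_
  rintro q ⟨⟨⟨gc, es⟩, sy, wd⟩, ⟨⟨sz, ba⟩, hR, hr⟩, cq, sc, k5, -, ⟨p11, p12, p13, -⟩, -⟩ d h b z hz
  obtain ⟨kp, kp1, sz⟩ := sz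
  obtain ⟨g1, n0, n1, nw, l0, l1, l2, r100, k1, k2, K0, K1⟩ := sz d h b z hz
  obtain ⟨-, -, -, -, -, bas⟩ := ba d h b
  obtain ⟨-, -, -, -, -, geo⟩ := bas z hz
  have hB' : z ∈ OmB q d := hz.1
  obtain ⟨op, w, eW⟩ := wd d h
  have rp : 0 < rr d z := by linarith
  have r2p : 0 < d.r2 z := Real.sqrt_pos.1 rp
  have rsq : rr d z ^ 2 = d.r2 z := Real.sq_sqrt r2p.le
  have hU : z ∈ H768.A.Ue q d := H768.A.OmB_Ue gc p11.le k5 h hB' (by rw [← rsq]; nlinarith)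
  have de := hu q gc es d h z hU
  have lo := H808.A.lo cq h hB'
  have hp1 : 0 < q.p₁ := by
    have h6 : 0 < 12 / (25 * q.p₁) := kp
    rw [div_pos_iff] at h6
    rcases h6 with h6 | h6 <;> linarith [h6.1, h6.2]
  have rlt : rr d z < q.r₁ * Real.exp (-1) := by
    refine lt_of_lt_of_le ?_ (hr p13).le
    refine lt_of_pow_lt_pow_left₀ 2 (by positivity) ?_
    rw [rsq]; exact hz.2.2.1
  have inn : ∀ i j, D₂ q i j (ff q d z) (rr d z) = if j = 0 then Real.exp (ff q d z) else 0 :=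
    fun i j => h.sl.inn i j (ff q d z, rr d z) rp rlt
  have eG : GG q d z = Real.exp (ff q d z) := by
    have := inn 1 0
    rw [if_pos rfl] at this
    exact this
  have R1 := sc.R1
  -- second derivatives of `u`
  have u2 : ‖iteratedFDeriv ℝ 2 (d.u q) z‖ ≤ kP q := by
    refine (de.u2 0 (by norm_num)).trans ?_
    have := hR kp
    rw [← div_eq_mul_inv, div_le_iff₀ (by linarith)]
    linarith
  obtain ⟨bu0, -, -, -, bW, -, -, G1, G2, -⟩ := sy d h z hB'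
  have bu : Bd d.sx d.sy (d.u q) 2 (kP q) z := Bd_nk d op w.cu.su hB' bu0.x bu0.y u2
  have br : Bd d.sx d.sy (rr d) 2 (4 / rr d z) z := H808.A.Bd_of d (H808.A.J_rr cq h lo)
  have Gp : 0 < GG q d z := by linarith
  have ng : NG q d z ≤ 2 * GG q d z := by
    have : d.N q z ≤ 1 / 10 * GG q d z := n1.trans (mul_le_mul_of_nonneg_right kp1 Gp.le)
    unfold NG; linarith
  have Cs' := Cs0 q
  have wl : Cs q * NG q d z ≤ (2 * Cs q + 1) * GG q d z := by
    have := mul_le_mul_of_nonneg_left ng Cs'.le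
    linarith
  have gl : Cs q * GG q d z ≤ (2 * Cs q + 1) * GG q d z := by
    have : 0 ≤ Cs q * GG q d z := by positivity
    linarith
  have bW' : Bd d.sx d.sy (d.W q) ((2 * Cs q + 1) * GG q d z) ((2 * Cs q + 1) * GG q d z) z :=
    ⟨fun i => (bW.x i).trans wl, fun i => (bW.y i).trans wl, fun i j => (bW.xx i j).trans wl,
      fun i j => (bW.xy i j).trans wl, fun i j => (bW.yx i j).trans wl,
      fun i j => (bW.yy i j).trans wl⟩
  have np : Np (GG q d z) (deriv d.Φ (d.u q z)) (deriv (deriv d.Φ) (d.u q z)) (lS₁ q (rr d z))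
      (lS₂ q (rr d z)) (kP q) (rr d z) :=
    { κ0 := kp, κ1 := kp1, G0 := Gp, N0 := n0, NG := n1, K0 := K0, K1 := K1, L0 := l0, L1 := l1,
      L2 := l2.trans (by linarith), r0 := rp, cu := k2 }
  have okx := sc.okx h op
  have oky := sc.oky h op
  have d20 : D₂ q 2 0 (d.u q z + lS q (rr d z)) (rr d z) =
      D₂ q 1 0 (d.u q z + lS q (rr d z)) (rr d z) := by
    have a1 := inn 2 0
    have a2 := inn 1 0
    rw [if_pos rfl] at a1 a2
    exact a1.trans a2.symm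
  have d01 : D₂ q 0 1 (d.u q z + lS q (rr d z)) (rr d z) = 0 := by
    have := inn 0 1
    rw [if_neg one_ne_zero] at this
    exact this
  have d11 : D₂ q 1 1 (d.u q z + lS q (rr d z)) (rr d z) = 0 := by
    have := inn 1 1
    rw [if_neg one_ne_zero] at this
    exact this
  have d02 : D₂ q 0 2 (d.u q z + lS q (rr d z)) (rr d z) = 0 := by
    have := inn 0 2
    rw [if_neg two_ne_zero] at this
    exact this
  cases b
  · exact w12_pt oky okx w hB' eW rfl d20 d01 d11 d02 np g1 nw (Bd.swap bu) (Bd.swap br)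
      (Bd.swap bW') (fun i => (G2 i).trans gl) (fun i => (G1 i).trans gl) geo le_rfl
  · exact w12_pt okx oky w hB' eW rfl d20 d01 d11 d02 np g1 nw bu br bW'
      (fun i => (G1 i).trans gl) (fun i => (G2 i).trans gl) geo le_rfl

end Vale.Agent.P088.R2.H983.P
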